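import Vale.Agent.P050.O.H300.Defs
import Vale.Agent.P050.R2.H300.Basic

set_option linter.all false

/-!
Dense targets, optimal order, S3 (helper998): the bound of a final term.
-/

open MeasureTheory Finset

namespace Vale.Agent.P050.Opt

open Vale.Agent.P050 Vale.Agent.P050.Dense

namespace H998

variable {V : Type*} [Fintype V] [DecidableEq V] {Ω : Type*} [MeasurableSpace Ω]

/-- the coordinates in `X` from the second point, the others from the first point -/
def mix (X : Finset V) (p : (V → Ω) × (V → Ω)) : V → Ω := fun v => if v ∈ X then p.2 v else p.1 v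

theorem mix_mem {X : Finset V} {v : V} (h : v ∈ X) (x y : V → Ω) : mix X (x, y) v = y v :=
  if_pos h

theorem mix_notMem {X : Finset V} {v : V} (h : v ∉ X) (x y : V → Ω) : mix X (x, y) v = x v :=
  if_neg h

theorem measurable_mix (X : Finset V) :
    Measurable (mix X : (V → Ω) × (V → Ω) → V → Ω) := by
  rw [measurable_pi_iff]
  intro i
  unfold mix
  by_cases h : i ∈ X
  · simp only [h, if_true]
    exact (measurable_pi_apply i).comp measurable_snd
  · simp only [h, if_false]
    exact (measurable_pi_apply i).comp measurable_fst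

theorem mp_mix (μ : Measure Ω) [IsProbabilityMeasure μ] (X : Finset V) :
    MeasurePreserving (mix X) ((piM V μ).prod (piM V μ)) (piM V μ) := by
  refine ⟨measurable_mix X, ?_⟩
  symm
  apply Measure.pi_eq
  intro s hs
  rw [Measure.map_apply (measurable_mix X) (MeasurableSet.univ_pi hs)]
  have h1 : (mix X : (V → Ω) × (V → Ω) → V → Ω) ⁻¹' (Set.univ.pi s) =
      (Set.univ.pi fun i => if i ∈ X then Set.univ else s i) ×ˢ
        (Set.univ.pi fun i => if i ∈ X then s i else Set.univ) := by
    ext ⟨x, y⟩
    simp only [Set.mem_preimage, Set.mem_univ_pi, Set.mem_prod, mix]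
    constructor
    · intro h
      refine ⟨fun i => ?_, fun i => ?_⟩
      · by_cases hi : i ∈ X
        · simp [hi]
        · have := h i
          simpa [hi] using this
      · by_cases hi : i ∈ X
        · have := h i
          simpa [hi] using this
        · simp [hi]
    · rintro ⟨h1, h2⟩ i
      by_cases hi : i ∈ X
      · have := h2 i
        simpa [hi] using this
      · have := h1 i
        simpa [hi] using this
  rw [h1, Measure.prod_prod, Measure.pi_pi, Measure.pi_pi, ← Finset.prod_mul_distrib]
  refine Finset.prod_congr rfl fun i _ => ?_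
  by_cases hi : i ∈ X <;> simp [hi]

/-- integrate the coordinates in `X` first -/
theorem integral_mix (μ : Measure Ω) [IsProbabilityMeasure μ] (X : Finset V)
    {f : (V → Ω) → ℝ} (hf : BM f) :
    ∫ x, f x ∂(piM V μ) = ∫ x, ∫ y, f (mix X (x, y)) ∂(piM V μ) ∂(piM V μ) := by
  have h := mp_mix (V := V) μ X
  rw [← h.map_eq, integral_map (measurable_mix X).aemeasurable hf.meas.aestronglyMeasurable]
  rw [h.map_eq]
  rw [integral_prod]
  exact (hf.comp (measurable_mix X)).integrable _

/-- a function of the coordinates in `X` -/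
theorem ind_congr {β : Type*} {f : (V → Ω) → β} {X : Finset V} (hf : ∀ u ∉ X, Ind u f)
    {x y : V → Ω} (h : ∀ v ∈ X, x v = y v) : f x = f y := by
  have key : ∀ S : Finset V, f (fun i => if i ∈ S then x i else y i) = f y := by
    intro S
    induction S using Finset.induction_on with
    | empty => simp
    | insert a S ha ih =>
      rw [← ih]
      have h1 : (fun i => if i ∈ insert a S then x i else y i) =
          Function.update (fun i => if i ∈ S then x i else y i) a (x a) := by
        ext i
        by_cases hi : i = a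
        · subst hi; simp
        · simp [Finset.mem_insert, hi]
      rw [h1]
      by_cases haX : a ∈ X
      · rw [h a haX]
        congr 1
        conv_rhs => rw [← Function.update_eq_self a (fun i => if i ∈ S then x i else y i)]
        simp [ha]
      · exact hf a haX _ _
  have := key Finset.univ
  simpa only [Finset.mem_univ, ↓reduceIte] using this

variable (H : SimpleGraph V) [DecidableRel H.Adj]
variable {μ : Measure Ω} [IsProbabilityMeasure μ] {U : Sym2 Ω → ℝ} {R : V → Ω → ℝ} {κ η : ℝ}

theorem Env_nonneg (hU : Ker μ U κ η) (hR : One μ R) (Λ : Finset V) (z : V → Ω) :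
    0 ≤ Env H U R Λ z := by
  unfold Env
  refine mul_nonneg (Finset.prod_nonneg fun v _ => ?_) (Finset.prod_nonneg fun e _ => ?_)
  · have := (abs_le.1 (hR.bd v (z v))).1
    linarith
  · exact hU.one_add_nonneg _

theorem bm_Env (hU : Ker μ U κ η) (hR : One μ R) (Λ : Finset V) : BM (Env H U R Λ) := by
  unfold Env
  refine (BM.finprod _ fun v _ => (BM.const 1).add ((hR.bm v).comp (measurable_pi_apply v))).mul
    (BM.finprod _ fun e _ => (BM.const 1).add (hU.good.bm_edge e))

theorem bm_Kp (hU : Ker μ U κ η) (X : Finset V) (O : V → Finset V) (Λ : Finset V) :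
    BM (Kp U X O Λ : (V → Ω) → ℝ) := by
  unfold Kp
  refine BM.finprod _ fun x _ => BM.finprod _ fun w _ => (BM.const 1).add ?_
  have := hU.good.bm_edge (V := V) s(x, w)
  simpa using this

/-- `Env` depends only on the coordinates in `Λ` -/
theorem Env_congr {Λ : Finset V} {x y : V → Ω} (h : ∀ v ∈ Λ, x v = y v) :
    Env H U R Λ x = Env H U R Λ y := by
  unfold Env
  congr 1
  · exact Finset.prod_congr rfl fun v hv => by rw [h v hv]
  · refine Finset.prod_congr rfl fun e he => ?_
    have he' := (Finset.mem_filter.1 he).2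
    congr 2
    induction e with
    | h a b =>
      have h1 := h a (he' a (Sym2.mem_mk_left a b))
      have h2 := h b (he' b (Sym2.mem_mk_right a b))
      simp only [Sym2.map_mk, h1, h2]

/-- the kept factors at an explored vertex, divided by `2` -/
noncomputable def kx (U : Sym2 Ω → ℝ) (O : V → Finset V) (Λ : Finset V) (x : V → Ω) (v : V)
    (s : Ω) : ℝ :=
  (1 / 2) * ∏ w ∈ O v ∩ Λ, (1 + U s(s, x w))

theorem Kp_mix {X Λ : Finset V} (hX : Disjoint X Λ) (O : V → Finset V) (x y : V → Ω) :
    Kp U X O Λ (mix X (x, y)) = 2 ^ X.card * ∏ v ∈ X, kx U O Λ x v (y v) := by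
  unfold Kp H998.kx
  rw [Finset.prod_mul_distrib, Finset.prod_const, ← mul_assoc, ← mul_pow]
  norm_num
  refine Finset.prod_congr rfl fun v hv => Finset.prod_congr rfl fun w hw => ?_
  have hw' : w ∉ X := fun h => Finset.disjoint_left.1 hX h (Finset.mem_inter.1 hw).2
  rw [mix_mem hv, mix_notMem hw']

end H998

open H998

variable {V : Type*} [Fintype V] [DecidableEq V] {Ω : Type*} [MeasurableSpace Ω]
variable (H : SimpleGraph V) [DecidableRel H.Adj] (o : V → ℕ)
variable (μ : Measure Ω) [IsProbabilityMeasure μ] {U : Sym2 Ω → ℝ} {R : V → Ω → ℝ} {κ η : ℝ}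

theorem IT_le {D : ℕ} (hD : ∀ v, H.degree v ≤ D) (hU : Ker μ U κ η) (hη : (1 + η) ^ D ≤ 2)
    (hR : One μ R) {G : (V → Ω) → ℝ} (hG : BM G) {X Λ : Finset V} (hGX : ∀ u ∉ X, Ind u G)
    {O : V → Finset V} (hO : ∀ x ∈ X, O x ⊆ H.neighborFinset x) (hX : Disjoint X Λ) {T : ℝ}
    (hT : ∀ h : V → Ω → ℝ, (∀ v, BM (h v)) → (∀ v s, |h v s| ≤ 1) →
      |∫ z, G z * ∏ x ∈ X, h x (z x) ∂(piM V μ)| ≤ T) :
    |IT H μ U R G X O Λ| ≤ 2 ^ X.card * T * ZE H μ U R Λ := by
  have hη0 := hU.η0
  have hF : BM fun z => G z * Kp U X O Λ z * Env H U R Λ z :=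
    (hG.mul (bm_Kp hU X O Λ)).mul (bm_Env H hU hR Λ)
  unfold IT ZE
  rw [integral_mix μ X hF]
  -- the functions at the explored vertices
  set h : (V → Ω) → V → Ω → ℝ := fun x v s => if v ∈ X then H998.kx U O Λ x v s else 1 with hh
  have hbm : ∀ x v, BM (h x v) := by
    intro x v
    simp only [hh]
    by_cases hv : v ∈ X
    · simp only [hv, if_true, H998.kx]
      refine (BM.const (1 / 2)).mul (BM.finprod _ fun w _ => (BM.const 1).add ?_)
      exact hU.good.bm_two.comp (g := fun s : Ω => (s, x w)) (by fun_prop)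
    · simp only [hv, if_false]
      exact BM.const 1
  have hle : ∀ x v s, |h x v s| ≤ 1 := by
    intro x v s
    simp only [hh]
    by_cases hv : v ∈ X
    · simp only [hv, if_true, H998.kx]
      have h0 : 0 ≤ ∏ w ∈ O v ∩ Λ, (1 + U s(s, x w)) :=
        Finset.prod_nonneg fun w _ => hU.one_add_nonneg _
      have hc : (O v ∩ Λ).card ≤ D :=
        (Finset.card_le_card (Finset.inter_subset_left.trans (hO v hv))).trans
          ((H.card_neighborFinset_eq_degree v).trans_le (hD v))
      have h1 : ∏ w ∈ O v ∩ Λ, (1 + U s(s, x w)) ≤ 2 := by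
        calc ∏ w ∈ O v ∩ Λ, (1 + U s(s, x w)) ≤ ∏ _w ∈ O v ∩ Λ, (1 + η) :=
              Finset.prod_le_prod (fun w _ => hU.one_add_nonneg _) fun w _ => hU.one_add_le _
          _ = (1 + η) ^ (O v ∩ Λ).card := by rw [Finset.prod_const]
          _ ≤ (1 + η) ^ D := pow_le_pow_right₀ (by linarith) hc
          _ ≤ 2 := hη
      rw [abs_of_nonneg (by positivity)]
      linarith
    · simp only [hv, if_false]
      simp
  have hT0 : 0 ≤ T := (abs_nonneg _).trans (hT (fun _ _ => 1) (fun _ => BM.const 1) (by simp))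
  have key : ∀ x : V → Ω, ∫ y, G (mix X (x, y)) * Kp U X O Λ (mix X (x, y)) *
      Env H U R Λ (mix X (x, y)) ∂(piM V μ) =
      Env H U R Λ x * (2 ^ X.card * ∫ y, G y * ∏ v ∈ X, h x v (y v) ∂(piM V μ)) := by
    intro x
    rw [← integral_const_mul, ← integral_const_mul]
    congr 1
    ext y
    have e1 : G (mix X (x, y)) = G y := ind_congr hGX fun v hv => mix_mem hv x y
    have e2 : Env H U R Λ (mix X (x, y)) = Env H U R Λ x := Env_congr H fun v hv =>
      mix_notMem (fun h' => Finset.disjoint_left.1 hX h' hv) x y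
    have e3 : ∏ v ∈ X, h x v (y v) = ∏ v ∈ X, H998.kx U O Λ x v (y v) :=
      Finset.prod_congr rfl fun v hv => by simp only [hh, hv, if_true]
    rw [e1, e2, e3, Kp_mix hX]
    ring
  simp only [key]
  have hE := bm_Env H hU hR Λ
  calc |∫ x, Env H U R Λ x * (2 ^ X.card * ∫ y, G y * ∏ v ∈ X, h x v (y v) ∂(piM V μ))
        ∂(piM V μ)|
      ≤ ∫ x, Env H U R Λ x * (2 ^ X.card * T) ∂(piM V μ) := by
        rw [← Real.norm_eq_abs]
        refine norm_integral_le_of_norm_le ((hE.mul (BM.const _)).integrable _)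
          (Filter.Eventually.of_forall fun x => ?_)
        rw [Real.norm_eq_abs, abs_mul, abs_mul, abs_of_nonneg (Env_nonneg H hU hR Λ x),
          abs_of_nonneg (show (0:ℝ) ≤ 2 ^ X.card by positivity)]
        exact mul_le_mul_of_nonneg_left (mul_le_mul_of_nonneg_left (hT (h x) (hbm x) (hle x))
          (by positivity)) (Env_nonneg H hU hR Λ x)
    _ = 2 ^ X.card * T * ∫ x, Env H U R Λ x ∂(piM V μ) := by
        rw [integral_mul_const]
        ring

end Vale.Agent.P050.Opt
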