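import Vale.Agent.P050.O.H300.StarDefs
import Vale.Agent.P050.R2.H300.Basic

set_option linter.all false

/-!
Dense targets, glued graphs, V2 (helper998): the vertex weights with constant marginals.
-/

open MeasureTheory Finset

namespace Vale.Agent.P050.Opt

open Vale.Agent.P050 Vale.Agent.P050.Dense

variable {V : Type*} [Fintype V] [DecidableEq V] {Ω : Type*} [MeasurableSpace Ω]
  [Fintype Ω] [MeasurableSingletonClass Ω]
variable (H : SimpleGraph V) [DecidableRel H.Adj]
variable (μ : Measure Ω) [IsProbabilityMeasure μ] {U : Sym2 Ω → ℝ} {κ η : ℝ}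

namespace H998

omit [Fintype V] [DecidableEq V] [MeasurableSpace Ω] [Fintype Ω] [MeasurableSingletonClass Ω] in
theorem bmf {Y : Type*} [Fintype Y] [MeasurableSpace Y] [MeasurableSingletonClass Y]
    (F : Y → ℝ) : BM F :=
  ⟨measurable_of_finite F, ∑ y, |F y|, fun y =>
    Finset.single_le_sum (f := fun y => |F y|) (fun i _ => abs_nonneg _) (Finset.mem_univ y)⟩

theorem Zk_int (U : Sym2 Ω → ℝ) (k : V → Ω → ℝ) (v : V) :
    Zk H μ U k = ∫ s, k v s * Pk H μ U k v s ∂μ := by
  unfold Zk
  rw [integral_update μ v (bmf _)]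
  rw [integral_integral_swap ((bmf _).integrable _)]
  congr 1
  ext s
  unfold Pk
  rw [← integral_const_mul]
  congr 1
  ext z
  rw [← Finset.mul_prod_erase Finset.univ (fun w => k w (Function.update z v s w))
    (Finset.mem_univ v), Function.update_self]
  have : ∏ w ∈ Finset.univ.erase v, k w (Function.update z v s w) =
      ∏ w ∈ Finset.univ.erase v, k w (z w) :=
    Finset.prod_congr rfl fun w hw => by rw [Function.update_of_ne (Finset.ne_of_mem_erase hw)]
  rw [this]
  ring

theorem Pk_update (U : Sym2 Ω → ℝ) (k : V → Ω → ℝ) (v : V) (g : Ω → ℝ) (s : Ω) :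
    Pk H μ U (Function.update k v g) v s = Pk H μ U k v s := by
  unfold Pk
  congr 1
  ext z
  congr 1
  exact Finset.prod_congr rfl fun w hw => by rw [Function.update_of_ne (Finset.ne_of_mem_erase hw)]

theorem continuous_Zk (U : Sym2 Ω → ℝ) : Continuous fun k : V → Ω → ℝ => Zk H μ U k := by
  unfold Zk
  have h : ∀ k : V → Ω → ℝ, ∫ z, (∏ v, k v (z v)) * ∏ e ∈ H.edgeFinset, (1 + U (e.map z))
      ∂(piM V μ) = ∑ z : V → Ω, (piM V μ).real {z} • ((∏ v, k v (z v)) *
        ∏ e ∈ H.edgeFinset, (1 + U (e.map z))) := fun k =>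
    integral_fintype ((bmf _).integrable _)
  simp only [h, smul_eq_mul]
  refine continuous_finset_sum _ fun z _ => continuous_const.mul ?_
  refine Continuous.mul ?_ continuous_const
  exact continuous_finset_prod _ fun v _ => continuous_apply_apply v (z v)

theorem isCompact_box : IsCompact {k : V → Ω → ℝ | Box k} := by
  have h : {k : V → Ω → ℝ | Box k} =
      Set.pi Set.univ fun _ : V => Set.pi Set.univ fun _ : Ω => Set.Icc (1:ℝ) (3 / 2) := by
    ext k
    simp only [Set.mem_setOf_eq, Set.mem_pi, Set.mem_univ, true_implies, Set.mem_Icc, Box]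
  rw [h]
  exact isCompact_univ_pi fun _ => isCompact_univ_pi fun _ => isCompact_Icc

theorem continuousOn_log (μ : Measure Ω) [IsProbabilityMeasure μ] :
    ContinuousOn (fun k : V → Ω → ℝ => ∑ v, ∫ s, Real.log (k v s) ∂μ)
      {k : V → Ω → ℝ | Box k} := by
  have h : ∀ k : V → Ω → ℝ, ∀ v, ∫ s, Real.log (k v s) ∂μ =
      ∑ s : Ω, μ.real {s} • Real.log (k v s) := fun k v => integral_fintype ((bmf _).integrable _)
  simp only [h, smul_eq_mul]
  refine continuousOn_finset_sum _ fun v _ => continuousOn_finset_sum _ fun s _ => ?_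
  refine continuousOn_const.mul ?_
  refine ContinuousOn.log (continuous_apply_apply v s).continuousOn fun k hk => ?_
  have := (hk v s).1
  positivity

omit [Fintype V] [DecidableEq V] in
/-- equality in Jensen's inequality for the logarithm -/
theorem eq_of_jensen {X : Ω → ℝ} (hX : ∀ s, 0 < X s) {m : ℝ} (hm : ∫ s, X s ∂μ = m)
    (hm0 : 0 < m) (h : Real.log m ≤ ∫ s, Real.log (X s) ∂μ) {s : Ω} (hs : μ {s} ≠ 0) :
    X s = m := by
  have hg0 : ∀ t, 0 ≤ X t / m - 1 - Real.log (X t / m) := fun t => by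
    have := Real.log_le_sub_one_of_pos (div_pos (hX t) hm0)
    linarith
  have hint : ∫ t, (X t / m - 1 - Real.log (X t / m)) ∂μ ≤ 0 := by
    have e1 : ∀ t, X t / m - 1 - Real.log (X t / m) =
        X t / m - 1 - (Real.log (X t) - Real.log m) := fun t => by
      rw [Real.log_div (hX t).ne' hm0.ne']
    simp only [e1]
    rw [integral_sub ((bmf _).integrable _) ((bmf _).integrable _),
      integral_sub ((bmf _).integrable _) ((bmf _).integrable _),
      integral_sub ((bmf _).integrable _) ((bmf _).integrable _), integral_div, hm,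
      div_self hm0.ne']
    simp
    exact h
  rw [integral_fintype ((bmf _).integrable _)] at hint
  have h0 : ∀ t ∈ (Finset.univ : Finset Ω),
      0 ≤ μ.real {t} • (X t / m - 1 - Real.log (X t / m)) := fun t _ =>
    mul_nonneg measureReal_nonneg (hg0 t)
  have h1 := (Finset.sum_eq_zero_iff_of_nonneg h0).1 (le_antisymm hint (Finset.sum_nonneg h0)) s
    (Finset.mem_univ s)
  have h2 : μ.real {s} ≠ 0 := by
    unfold Measure.real
    exact ENNReal.toReal_ne_zero.2 ⟨hs, measure_ne_top _ _⟩
  have h3 : X s / m - 1 - Real.log (X s / m) = 0 := by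
    rcases mul_eq_zero.1 h1 with h | h
    · exact absurd h h2
    · exact h
  by_contra hne
  have h4 : X s / m ≠ 1 := by
    intro h5
    rw [div_eq_one_iff_eq hm0.ne'] at h5
    exact hne h5
  have := Real.log_lt_sub_one_of_pos (div_pos (hX s) hm0) h4
  linarith

end H998

open H998

/-- V2: a minimiser of `log Zk - Σ ∫ log k` over the box -/
theorem exists_k (hU : Ker μ U κ η)
    (hpin : ∀ k : V → Ω → ℝ, Box k → ∀ v s t, 0 < Pk H μ U k v s ∧
      Pk H μ U k v s ≤ 5 / 4 * Pk H μ U k v t) :
    ∃ k : V → Ω → ℝ, Box k ∧ ∀ v s, μ {s} ≠ 0 → k v s * Pk H μ U k v s = Zk H μ U k := by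
  rcases isEmpty_or_nonempty V with hV | hV
  · exact ⟨fun _ _ => 1, fun v => (hV.false v).elim, fun v => (hV.false v).elim⟩
  have hΩ : Nonempty Ω := by
    by_contra h
    rw [not_nonempty_iff] at h
    have h1 := measure_univ (μ := μ)
    rw [Set.univ_eq_empty_iff.2 h, measure_empty] at h1
    exact zero_ne_one h1
  have hpos : ∀ k : V → Ω → ℝ, Box k → 0 < Zk H μ U k := by
    intro k hk
    obtain ⟨v₀⟩ := hV
    rw [Zk_int H μ U k v₀]
    obtain ⟨t, ht⟩ := Finite.exists_min (fun s => k v₀ s * Pk H μ U k v₀ s)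
    have h0 : 0 < k v₀ t * Pk H μ U k v₀ t :=
      mul_pos (lt_of_lt_of_le one_pos (hk v₀ t).1) (hpin k hk v₀ t t).1
    calc (0:ℝ) < k v₀ t * Pk H μ U k v₀ t := h0
      _ = ∫ _s : Ω, k v₀ t * Pk H μ U k v₀ t ∂μ := by simp
      _ ≤ ∫ s, k v₀ s * Pk H μ U k v₀ s ∂μ :=
          integral_mono ((bmf _).integrable _) ((bmf _).integrable _) ht
  have hcont : ContinuousOn (fun k : V → Ω → ℝ => Real.log (Zk H μ U k) -
      ∑ v, ∫ s, Real.log (k v s) ∂μ) {k : V → Ω → ℝ | Box k} :=
    ((continuous_Zk H μ U).continuousOn.log fun k hk => (hpos k hk).ne').sub (continuousOn_log μ)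
  obtain ⟨k, hk, hmin⟩ := isCompact_box.exists_isMinOn
    ⟨fun (_ : V) (_ : Ω) => (1:ℝ), fun _ _ => by norm_num⟩ hcont
  have hk' : Box k := hk
  refine ⟨k, hk', fun v s hs => ?_⟩
  have hP : ∀ s, 0 < Pk H μ U k v s := fun s => (hpin k hk' v s s).1
  obtain ⟨t, ht⟩ := Finite.exists_max (fun s => Pk H μ U k v s)
  have hk1 : ∀ s, 0 < k v s := fun s => lt_of_lt_of_le one_pos (hk' v s).1
  have hbox : Box (Function.update k v fun s => Pk H μ U k v t / Pk H μ U k v s) := by
    intro w s
    by_cases hw : w = v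
    · subst hw
      rw [Function.update_self]
      refine ⟨(one_le_div (hP s)).2 (ht s), ?_⟩
      rw [div_le_iff₀ (hP s)]
      have := (hpin k hk' w t s).2
      have := hP s
      linarith
    · rw [Function.update_of_ne hw]
      exact hk' w s
  have h1 := isMinOn_iff.1 hmin _ hbox
  have hZ' : Zk H μ U (Function.update k v fun s => Pk H μ U k v t / Pk H μ U k v s) =
      Pk H μ U k v t := by
    rw [Zk_int H μ U _ v]
    have : ∀ s, (Function.update k v fun s => Pk H μ U k v t / Pk H μ U k v s) v s *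
        Pk H μ U (Function.update k v fun s => Pk H μ U k v t / Pk H μ U k v s) v s =
        Pk H μ U k v t := by
      intro s
      rw [Pk_update, Function.update_self, div_mul_cancel₀ _ (hP s).ne']
    simp only [this]
    simp
  rw [hZ', ← Finset.add_sum_erase Finset.univ _ (Finset.mem_univ v),
    ← Finset.add_sum_erase Finset.univ (fun w => ∫ s, Real.log
      ((Function.update k v fun s => Pk H μ U k v t / Pk H μ U k v s) w s) ∂μ)
      (Finset.mem_univ v)] at h1
  have hrest : ∑ w ∈ Finset.univ.erase v, ∫ s, Real.log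
      ((Function.update k v fun s => Pk H μ U k v t / Pk H μ U k v s) w s) ∂μ =
      ∑ w ∈ Finset.univ.erase v, ∫ s, Real.log (k w s) ∂μ :=
    Finset.sum_congr rfl fun w hw => by rw [Function.update_of_ne (Finset.ne_of_mem_erase hw)]
  rw [hrest, Function.update_self] at h1
  have hlog : ∫ s, Real.log (Pk H μ U k v t / Pk H μ U k v s) ∂μ =
      Real.log (Pk H μ U k v t) - ∫ s, Real.log (Pk H μ U k v s) ∂μ := by
    have : ∀ s, Real.log (Pk H μ U k v t / Pk H μ U k v s) =
        Real.log (Pk H μ U k v t) - Real.log (Pk H μ U k v s) := fun s =>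
      Real.log_div (hP t).ne' (hP s).ne'
    simp only [this]
    rw [integral_sub ((bmf _).integrable _) ((bmf _).integrable _)]
    simp
  rw [hlog] at h1
  have hX : ∫ s, Real.log (k v s * Pk H μ U k v s) ∂μ =
      ∫ s, Real.log (k v s) ∂μ + ∫ s, Real.log (Pk H μ U k v s) ∂μ := by
    have : ∀ s, Real.log (k v s * Pk H μ U k v s) =
        Real.log (k v s) + Real.log (Pk H μ U k v s) := fun s =>
      Real.log_mul (hk1 s).ne' (hP s).ne'
    simp only [this]
    exact integral_add ((bmf _).integrable _) ((bmf _).integrable _)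
  refine eq_of_jensen μ (X := fun s => k v s * Pk H μ U k v s)
    (fun s => mul_pos (hk1 s) (hP s)) (Zk_int H μ U k v).symm (hpos k hk') ?_ hs
  rw [hX]
  linarith

end Vale.Agent.P050.Opt
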