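import Vale.Agent.P050.O.H998.Stage3
import Vale.Agent.P050.O.H928.Step

set_option linter.all false

/-!
Dense targets, optimal order, S5c (helper998): the pure cycle, literal statement of the plan.
-/

open MeasureTheory Finset

namespace Vale.Agent.P050.Opt

open Vale.Agent.P050 Vale.Agent.P050.Dense

variable {V : Type*} [Fintype V] [DecidableEq V] {Ω : Type*} [MeasurableSpace Ω]
variable (H : SimpleGraph V) [DecidableRel H.Adj] (o : V → ℕ)
variable (μ : Measure Ω) [IsProbabilityMeasure μ] {U : Sym2 Ω → ℝ} {R : V → Ω → ℝ} {κ η : ℝ}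

open scoped Classical in
/-- S5c: a pure cycle: main term, and exploration from every vertex of the cycle. -/
theorem stage3 {D : ℕ} (ho : Function.Injective o) (hD : ∀ v, H.degree v ≤ D) (hU : Ker μ U κ η)
    (hη : (1 + η) ^ D ≤ 2) (hR : One μ R) (hκ : 24 * D * κ ≤ 1)
    {T : V × List V × Option (Option V) × Finset V × Bool → ℝ} (hT0 : ∀ q, 0 ≤ T q)
    (hT : TB H μ U R T) {a₀ : V} {L₀ : List V} {Λ : Finset V}
    {O : V → Finset V} (hnd : (L₀ ++ [a₀]).Nodup) (hpath : ∀ x y, Cons a₀ L₀ x y → H.Adj x y)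
    {k : ℕ} (hlen : L₀.length + 1 = 2 * k) (hk : 2 ≤ k) (hcl : H.Adj a₀ (hd a₀ L₀))
    (hX : Disjoint (vs a₀ L₀) Λ) (hO : ∀ x ∈ vs a₀ L₀, O x ⊆ H.neighborFinset x) :
    |IT H μ U R (fun z => pU U a₀ L₀ z * U s(z a₀, z (hd a₀ L₀))) (vs a₀ L₀) O Λ -
        ck μ U k * ZE H μ U R Λ| ≤
      ∑ i ∈ range (2 * k), ∑ j ∈ range (Fintype.card V),
        ∑ a ∈ Λ.filter (fun a => H.Adj (hd a₀ ((L₀ ++ [a₀]).rotate i)) a),
        ∑ L ∈ Wk H a (Λ.erase a) j, ∑ q ∈ ((univ : Finset (Finset V × Bool)).filter fun q =>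
          Shape H (((L₀ ++ [a₀]).rotate i).getLast?.getD a₀)
            (L ++ a :: ((L₀ ++ [a₀]).rotate i).dropLast)
            (some (some (hd a₀ ((L₀ ++ [a₀]).rotate i)))) q.1 q.2),
          2 ^ (j + 1 + 2 * k) * T (((L₀ ++ [a₀]).rotate i).getLast?.getD a₀,
            L ++ a :: ((L₀ ++ [a₀]).rotate i).dropLast,
            some (some (hd a₀ ((L₀ ++ [a₀]).rotate i))), q.1, q.2) * ZE H μ U R (Λ \ vs a L) :=
  stage3_of H o μ
    (fun X Λ O u p g hg hgu hgX hp huX huΛ hX => step H o μ ho hU hR hg hgu hgX hp huX huΛ hX)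
    ho hD hU hη hR hT0 hT hnd hpath hlen hk hcl hX hO

end Vale.Agent.P050.Opt
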