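import Vale.Agent.P050.O.H300.AsmDefs
import Mathlib.Analysis.SpecialFunctions.Log.NegMulLog

set_option linter.all false

/-!
Dense targets, assembled graphs, F3: compactness.
-/

open MeasureTheory Finset

namespace Vale.Agent.P050.Opt

open Vale.Agent.P050 Vale.Agent.P050.Dense

namespace H998

theorem continuous_mul_log_div (m : ℝ) : Continuous fun x : ℝ => x * Real.log (x / m) := by
  rcases eq_or_ne m 0 with hm | hm
  · have : (fun x : ℝ => x * Real.log (x / m)) = fun _ => 0 := by
      funext x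
      rw [hm, div_zero, Real.log_zero, mul_zero]
    rw [this]
    exact continuous_const
  · have : (fun x : ℝ => x * Real.log (x / m)) = fun x => x * Real.log x - x * Real.log m := by
      funext x
      rcases eq_or_ne x 0 with hx | hx
      · rw [hx]; simp
      · rw [Real.log_div hx hm, mul_sub]
    rw [this]
    exact Real.continuous_mul_log.sub (continuous_id.mul continuous_const)

end H998

section

variable {V : Type} [Fintype V] [DecidableEq V] {Ω : Type} [Fintype Ω] [DecidableEq Ω]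

/-- F3: compactness -/
theorem ent_of_approx {H : SimpleGraph V} {w : Ω → ℝ} {U : Sym2 Ω → ℝ}
    (h : ∀ ε : ℝ, 0 < ε → ∃ g : (V → Ω) → ℝ, (∀ z, 0 ≤ g z) ∧ ∑ z, g z = 1 ∧
      (∀ v s, |∑ z ∈ univ.filter (fun z : V → Ω => z v = s), g z - w s| ≤ ε) ∧
      (∀ z, mH H w U z = 0 → g z = 0) ∧ ∑ z, g z * Real.log (g z / mH H w U z) ≤ ε) :
    Ent H w U := by
  set K : Set ((V → Ω) → ℝ) := stdSimplex ℝ (V → Ω) ∩
    {g | ∀ z, mH H w U z = 0 → g z = 0} with hKdef
  have hKc : IsCompact K := by
    refine (isCompact_stdSimplex ℝ (V → Ω)).inter_right ?_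
    have : {g : (V → Ω) → ℝ | ∀ z, mH H w U z = 0 → g z = 0} =
        ⋂ z, {g : (V → Ω) → ℝ | mH H w U z = 0 → g z = 0} := by
      ext g; simp
    rw [this]
    refine isClosed_iInter fun z => ?_
    by_cases hz : mH H w U z = 0
    · have : {g : (V → Ω) → ℝ | mH H w U z = 0 → g z = 0} = {g | g z = 0} := by
        ext g; simp [hz]
      rw [this]
      exact isClosed_eq (continuous_apply z) continuous_const
    · have : {g : (V → Ω) → ℝ | mH H w U z = 0 → g z = 0} = Set.univ := by
        ext g; simp [hz]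
      rw [this]
      exact isClosed_univ
  have hmem : ∀ g : (V → Ω) → ℝ, (∀ z, 0 ≤ g z) → ∑ z, g z = 1 →
      (∀ z, mH H w U z = 0 → g z = 0) → g ∈ K := fun g h0 h1 h2 => ⟨⟨h0, h1⟩, h2⟩
  have hKn : K.Nonempty := by
    obtain ⟨g, h0, h1, -, h3, -⟩ := h 1 one_pos
    exact ⟨g, hmem g h0 h1 h3⟩
  set Φ : ((V → Ω) → ℝ) → ℝ := fun g =>
    (∑ v : V, ∑ s : Ω, |∑ z ∈ univ.filter (fun z : V → Ω => z v = s), g z - w s|) +
      max 0 (∑ z, g z * Real.log (g z / mH H w U z)) with hΦ
  have hΦc : Continuous Φ := by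
    refine Continuous.add ?_ ?_
    · refine continuous_finsetSum _ fun v _ => continuous_finsetSum _ fun s _ => ?_
      refine Continuous.abs (Continuous.sub ?_ continuous_const)
      exact continuous_finsetSum _ fun z _ => continuous_apply z
    · refine continuous_const.max (continuous_finsetSum _ fun z _ => ?_)
      exact (H998.continuous_mul_log_div (mH H w U z)).comp (continuous_apply z)
  obtain ⟨g, hgK, hgmin⟩ := hKc.exists_isMinOn hKn hΦc.continuousOn
  have hle : ∀ ε : ℝ, 0 < ε →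
      Φ g ≤ ((Fintype.card V : ℝ) * Fintype.card Ω + 1) * ε := by
    intro ε hε
    obtain ⟨f, h0, h1, h2, h3, h4⟩ := h ε hε
    refine (hgmin (hmem f h0 h1 h3)).trans ?_
    have hA : ∑ v : V, ∑ s : Ω, |∑ z ∈ univ.filter (fun z : V → Ω => z v = s), f z - w s| ≤
        ∑ _v : V, ∑ _s : Ω, ε :=
      Finset.sum_le_sum fun v _ => Finset.sum_le_sum fun s _ => h2 v s
    have hB : ∑ _v : V, ∑ _s : Ω, ε = (Fintype.card V : ℝ) * Fintype.card Ω * ε := by
      simp [Finset.sum_const, Finset.card_univ, mul_assoc]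
    have hC : max 0 (∑ z, f z * Real.log (f z / mH H w U z)) ≤ ε := max_le hε.le h4
    show (∑ v : V, ∑ s : Ω, |∑ z ∈ univ.filter (fun z : V → Ω => z v = s), f z - w s|) +
      max 0 (∑ z, f z * Real.log (f z / mH H w U z)) ≤ _
    calc _ ≤ (Fintype.card V : ℝ) * Fintype.card Ω * ε + ε := add_le_add (hA.trans hB.le) hC
      _ = _ := by ring
  have hΦ0 : Φ g ≤ 0 := by
    by_contra hcon
    push Not at hcon
    have hc : (0 : ℝ) < (Fintype.card V : ℝ) * Fintype.card Ω + 1 := by positivity
    have := hle (Φ g / (2 * ((Fintype.card V : ℝ) * Fintype.card Ω + 1)))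
      (div_pos hcon (by positivity))
    have h2 : ((Fintype.card V : ℝ) * Fintype.card Ω + 1) *
        (Φ g / (2 * ((Fintype.card V : ℝ) * Fintype.card Ω + 1))) = Φ g / 2 := by
      field_simp
    rw [h2] at this
    linarith
  have hS0 : 0 ≤ ∑ v : V, ∑ s : Ω,
      |∑ z ∈ univ.filter (fun z : V → Ω => z v = s), g z - w s| :=
    Finset.sum_nonneg fun v _ => Finset.sum_nonneg fun s _ => abs_nonneg _
  have hM0 : (0 : ℝ) ≤ max 0 (∑ z, g z * Real.log (g z / mH H w U z)) := le_max_left _ _
  have hΦg : Φ g = (∑ v : V, ∑ s : Ω,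
      |∑ z ∈ univ.filter (fun z : V → Ω => z v = s), g z - w s|) +
      max 0 (∑ z, g z * Real.log (g z / mH H w U z)) := rfl
  refine ⟨g, hgK.1.1, hgK.1.2, fun v s => ?_, hgK.2, ?_⟩
  · have hS : ∑ v : V, ∑ s : Ω,
        |∑ z ∈ univ.filter (fun z : V → Ω => z v = s), g z - w s| ≤ 0 := by linarith
    have h1 : |∑ z ∈ univ.filter (fun z : V → Ω => z v = s), g z - w s| ≤ 0 := by
      refine le_trans ?_ hS
      refine le_trans (Finset.single_le_sum
        (f := fun s => |∑ z ∈ univ.filter (fun z : V → Ω => z v = s), g z - w s|)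
        (fun s _ => abs_nonneg _) (Finset.mem_univ s)) ?_
      exact Finset.single_le_sum
        (f := fun v => ∑ s : Ω, |∑ z ∈ univ.filter (fun z : V → Ω => z v = s), g z - w s|)
        (fun v _ => Finset.sum_nonneg fun s _ => abs_nonneg _) (Finset.mem_univ v)
    have h2 := abs_nonpos_iff.mp h1
    linarith
  · have : max 0 (∑ z, g z * Real.log (g z / mH H w U z)) ≤ 0 := by linarith
    exact (le_max_right _ _).trans this

end

end Vale.Agent.P050.Opt
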