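import Vale.Agent.P050.O.H128.EdgeDefs
import Vale.Agent.P050.O.H998.Approx

set_option linter.all false

/-!
Compactness with vertex and edge conditions.
-/

open MeasureTheory Finset

namespace Vale.Agent.P050.Opt

open Vale.Agent.P050 Vale.Agent.P050.Dense

namespace H998

/-- compactness, for finitely many linear conditions -/
theorem approx_gen {Z ι : Type*} [Fintype Z] [Fintype ι] (m : Z → ℝ) (S : ι → Finset Z)
    (b : ι → ℝ)
    (h : ∀ ε : ℝ, 0 < ε → ∃ g : Z → ℝ, (∀ z, 0 ≤ g z) ∧ ∑ z, g z = 1 ∧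
      (∀ i, |∑ z ∈ S i, g z - b i| ≤ ε) ∧
      (∀ z, m z = 0 → g z = 0) ∧ ∑ z, g z * Real.log (g z / m z) ≤ ε) :
    ∃ g : Z → ℝ, (∀ z, 0 ≤ g z) ∧ ∑ z, g z = 1 ∧ (∀ i, ∑ z ∈ S i, g z = b i) ∧
      (∀ z, m z = 0 → g z = 0) ∧ ∑ z, g z * Real.log (g z / m z) ≤ 0 := by
  set K : Set (Z → ℝ) := stdSimplex ℝ Z ∩ {g | ∀ z, m z = 0 → g z = 0} with hKdef
  have hKc : IsCompact K := by
    refine (isCompact_stdSimplex ℝ Z).inter_right ?_
    have : {g : Z → ℝ | ∀ z, m z = 0 → g z = 0} = ⋂ z, {g : Z → ℝ | m z = 0 → g z = 0} := by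
      ext g; simp
    rw [this]
    refine isClosed_iInter fun z => ?_
    by_cases hz : m z = 0
    · have : {g : Z → ℝ | m z = 0 → g z = 0} = {g | g z = 0} := by
        ext g; simp [hz]
      rw [this]
      exact isClosed_eq (continuous_apply z) continuous_const
    · have : {g : Z → ℝ | m z = 0 → g z = 0} = Set.univ := by
        ext g; simp [hz]
      rw [this]
      exact isClosed_univ
  have hmem : ∀ g : Z → ℝ, (∀ z, 0 ≤ g z) → ∑ z, g z = 1 →
      (∀ z, m z = 0 → g z = 0) → g ∈ K := fun g h0 h1 h2 => ⟨⟨h0, h1⟩, h2⟩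
  have hKn : K.Nonempty := by
    obtain ⟨g, h0, h1, -, h3, -⟩ := h 1 one_pos
    exact ⟨g, hmem g h0 h1 h3⟩
  set Φ : (Z → ℝ) → ℝ := fun g =>
    (∑ i : ι, |∑ z ∈ S i, g z - b i|) + max 0 (∑ z, g z * Real.log (g z / m z)) with hΦ
  have hΦc : Continuous Φ := by
    refine Continuous.add ?_ ?_
    · refine continuous_finsetSum _ fun i _ => ?_
      refine Continuous.abs (Continuous.sub ?_ continuous_const)
      exact continuous_finsetSum _ fun z _ => continuous_apply z
    · refine continuous_const.max (continuous_finsetSum _ fun z _ => ?_)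
      exact (continuous_mul_log_div (m z)).comp (continuous_apply z)
  obtain ⟨g, hgK, hgmin⟩ := hKc.exists_isMinOn hKn hΦc.continuousOn
  have hle : ∀ ε : ℝ, 0 < ε → Φ g ≤ ((Fintype.card ι : ℝ) + 1) * ε := by
    intro ε hε
    obtain ⟨f, h0, h1, h2, h3, h4⟩ := h ε hε
    refine (hgmin (hmem f h0 h1 h3)).trans ?_
    have hA : ∑ i : ι, |∑ z ∈ S i, f z - b i| ≤ ∑ _i : ι, ε :=
      Finset.sum_le_sum fun i _ => h2 i
    have hB : ∑ _i : ι, ε = (Fintype.card ι : ℝ) * ε := by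
      simp [Finset.sum_const, Finset.card_univ]
    have hC : max 0 (∑ z, f z * Real.log (f z / m z)) ≤ ε := max_le hε.le h4
    show (∑ i : ι, |∑ z ∈ S i, f z - b i|) + max 0 (∑ z, f z * Real.log (f z / m z)) ≤ _
    calc _ ≤ (Fintype.card ι : ℝ) * ε + ε := add_le_add (hA.trans hB.le) hC
      _ = _ := by ring
  have hΦ0 : Φ g ≤ 0 := by
    by_contra hcon
    push Not at hcon
    have := hle (Φ g / (2 * ((Fintype.card ι : ℝ) + 1))) (div_pos hcon (by positivity))
    have h2 : ((Fintype.card ι : ℝ) + 1) * (Φ g / (2 * ((Fintype.card ι : ℝ) + 1))) = Φ g / 2 := by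
      field_simp
    rw [h2] at this
    linarith
  have hS0 : 0 ≤ ∑ i : ι, |∑ z ∈ S i, g z - b i| := Finset.sum_nonneg fun i _ => abs_nonneg _
  have hM0 : (0 : ℝ) ≤ max 0 (∑ z, g z * Real.log (g z / m z)) := le_max_left _ _
  have hΦg : Φ g = (∑ i : ι, |∑ z ∈ S i, g z - b i|) +
      max 0 (∑ z, g z * Real.log (g z / m z)) := rfl
  refine ⟨g, hgK.1.1, hgK.1.2, fun i => ?_, hgK.2, ?_⟩
  · have hS : ∑ i : ι, |∑ z ∈ S i, g z - b i| ≤ 0 := by linarith
    have h1 : |∑ z ∈ S i, g z - b i| ≤ 0 := by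
      refine le_trans ?_ hS
      exact Finset.single_le_sum (f := fun i => |∑ z ∈ S i, g z - b i|)
        (fun i _ => abs_nonneg _) (Finset.mem_univ i)
    have h2 := abs_nonpos_iff.mp h1
    linarith
  · have : max 0 (∑ z, g z * Real.log (g z / m z)) ≤ 0 := by linarith
    exact (le_max_right _ _).trans this

end H998

open scoped Classical in
/-- P3: compactness -/
theorem approxE : ApproxE := by
  intro V _ _ Ω _ _ H w U h
  obtain ⟨g, h0, h1, h2, h3, h4⟩ := H998.approx_gen (Z := V → Ω)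
    (ι := (V × Ω) ⊕ (V × V × Ω × Ω)) (mH H w U)
    (fun i => Sum.elim (fun a : V × Ω => univ.filter (fun z : V → Ω => z a.1 = a.2))
      (fun a : V × V × Ω × Ω => univ.filter (fun z : V → Ω => H.Adj a.1 a.2.1 ∧
        z a.1 = a.2.2.1 ∧ z a.2.1 = a.2.2.2)) i)
    (fun i => Sum.elim (fun a : V × Ω => w a.2)
      (fun a : V × V × Ω × Ω => if H.Adj a.1 a.2.1 then
        w a.2.2.1 * w a.2.2.2 * (1 + U s(a.2.2.1, a.2.2.2)) else 0) i)
    (by
      intro ε hε
      obtain ⟨g, h0, h1, h2, h3, h4, h5⟩ := h ε hε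
      refine ⟨g, h0, h1, ?_, h4, h5⟩
      rintro (⟨v, s⟩ | ⟨u, v, s, t⟩)
      · exact h2 v s
      · simp only [Sum.elim_inr]
        by_cases hA : H.Adj u v
        · simp only [hA, true_and, if_true]
          exact h3 u v hA s t
        · simp only [hA, false_and, if_false, Finset.filter_false, Finset.sum_empty, sub_self,
            abs_zero]
          exact hε.le)
  refine ⟨g, h0, h1, fun v s => h2 (Sum.inl (v, s)), ?_, h3, h4⟩
  intro u v hA s t
  have h5 := h2 (Sum.inr (u, v, s, t))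
  simp only [Sum.elim_inr, hA, true_and, if_true] at h5
  exact h5

end Vale.Agent.P050.Opt
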