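import Vale.Agent.P050.O.H998.ITle
import Vale.Agent.P050.O.H300.Bas

set_option linter.all false

/-!
Dense targets, optimal order, S5c (helper998): lists, rotations, telescoping of the kept factors.
-/

open MeasureTheory Finset

namespace Vale.Agent.P050.Opt

open Vale.Agent.P050 Vale.Agent.P050.Dense

namespace H998

section lists

variable {V : Type*} [Fintype V] [DecidableEq V] {Ω : Type*} [MeasurableSpace Ω]

theorem pv_append (a' a : V) (L M : List V) : pv a' (L ++ a :: M) = vs a' M ∪ pv a L := by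
  cases L with
  | nil =>
    show vs a' M = vs a' M ∪ ∅
    rw [Finset.union_empty]
  | cons w L => exact (vs_append_cons a' a L M).trans (Finset.union_comm _ _)

theorem pathEdges_snoc (x a y : V) (l : List V) :
    pathEdges x (l ++ [a]) y = pathEdges x l a ++ [s(a, y)] := by
  induction l generalizing x with
  | nil => simp [pathEdges]
  | cons v l ih => simp [pathEdges, ih]

theorem pU_eq (U : Sym2 Ω → ℝ) (a : V) (L : List V) (w : V) (z : V → Ω) :
    pU U a (w :: L) z = ((pathEdges w L a).map fun e => U (e.map z)).prod := by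
  induction L generalizing w with
  | nil => simp [pU, pathEdges, hd, Sym2.eq_swap]
  | cons v L ih =>
    rw [pU, ih, pathEdges_cons, List.map_cons, List.prod_cons]
    simp only [hd, Sym2.map_mk]
    rw [Sym2.eq_swap]

/-- the edges of the closed path through the list -/
def cE : List V → List (Sym2 V)
  | [] => []
  | x :: l => pathEdges x l x

theorem cE_rotate_one (C : List V) : (cE (C.rotate 1)).Perm (cE C) := by
  rcases C with _ | ⟨x, _ | ⟨y, l⟩⟩
  · exact List.Perm.refl _
  · rw [List.rotate_singleton]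
  · have e : (x :: y :: l).rotate 1 = y :: (l ++ [x]) := by simp
    rw [e]
    show (pathEdges y (l ++ [x]) y).Perm (pathEdges x (y :: l) x)
    rw [pathEdges_snoc, pathEdges_cons]
    exact List.perm_append_singleton _ _

theorem cE_rotate (C : List V) (i : ℕ) : (cE (C.rotate i)).Perm (cE C) := by
  induction i with
  | zero => rw [List.rotate_zero]
  | succ i ih =>
    rw [← List.rotate_rotate]
    exact (cE_rotate_one _).trans ih

/-- the product of `U` along the closed path -/
noncomputable def cyp (U : Sym2 Ω → ℝ) (C : List V) (z : V → Ω) : ℝ :=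
  ((cE C).map fun e => U (e.map z)).prod

theorem cyp_rotate (U : Sym2 Ω → ℝ) (C : List V) (i : ℕ) (z : V → Ω) :
    cyp U (C.rotate i) z = cyp U C z :=
  ((cE_rotate C i).map _).prod_eq

theorem cyp_eq (U : Sym2 Ω → ℝ) (a x : V) (m : List V) (z : V → Ω) :
    cyp U (x :: (m ++ [a])) z = pU U a (x :: m) z * U s(z a, z x) := by
  rw [pU_eq]
  show ((pathEdges x (m ++ [a]) x).map _).prod = _
  rw [pathEdges_snoc, List.map_append, List.prod_append]
  simp

theorem Cons_mem {a : V} {m : List V} {x u v : V} (h : Cons a (x :: m) u v) :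
    s(u, v) ∈ pathEdges x m a := by
  induction m generalizing x with
  | nil =>
    simp only [Cons, hd, or_false] at h
    obtain ⟨rfl, rfl⟩ := h
    simp [pathEdges]
  | cons y m ih =>
    rcases h with ⟨rfl, rfl⟩ | h
    · simp [pathEdges, hd]
    · rw [pathEdges_cons]
      exact List.mem_cons_of_mem _ (ih h)

theorem mem_Cons {a : V} {m : List V} {x : V} {e : Sym2 V} (h : e ∈ pathEdges x m a) :
    ∃ u v, e = s(u, v) ∧ Cons a (x :: m) u v := by
  induction m generalizing x with
  | nil =>
    rw [pathEdges_nil, List.mem_singleton] at h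
    exact ⟨x, a, h, Or.inl ⟨rfl, rfl⟩⟩
  | cons y m ih =>
    rw [pathEdges_cons, List.mem_cons] at h
    rcases h with h | h
    · exact ⟨x, y, h, Or.inl ⟨rfl, rfl⟩⟩
    · obtain ⟨u, v, h1, h2⟩ := ih h
      exact ⟨u, v, h1, Or.inr h2⟩

theorem adjC_iff (H : SimpleGraph V) (a x : V) (m : List V) :
    (∀ e ∈ cE (x :: (m ++ [a])), e ∈ H.edgeSet) ↔
      (∀ u v, Cons a (x :: m) u v → H.Adj u v) ∧ H.Adj a x := by
  show (∀ e ∈ pathEdges x (m ++ [a]) x, e ∈ H.edgeSet) ↔ _
  rw [pathEdges_snoc]
  constructor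
  · intro h
    refine ⟨fun u v huv => ?_, ?_⟩
    · exact (SimpleGraph.mem_edgeSet H).1 (h _ (List.mem_append_left _ (Cons_mem huv)))
    · exact (SimpleGraph.mem_edgeSet H).1 (h _ (List.mem_append_right _ (by simp)))
  · rintro ⟨h1, h2⟩ e he
    rcases List.mem_append.1 he with he | he
    · obtain ⟨u, v, rfl, huv⟩ := mem_Cons he
      exact (SimpleGraph.mem_edgeSet H).2 (h1 u v huv)
    · rw [List.mem_singleton] at he
      rw [he]
      exact (SimpleGraph.mem_edgeSet H).2 h2

/-! ### telescoping of the kept factors -/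

/-- the vertex number `i` -/
theorem hd_rotate (a₀ : V) {C : List V} {i : ℕ} (hi : i < C.length) :
    hd a₀ (C.rotate i) = C[i] := by
  rw [List.rotate_eq_drop_append_take hi.le, List.drop_eq_getElem_cons hi]
  rfl

/-- the kept sets of the term `(i, a)` -/
def Oi (C : List V) (a₀ : V) (o : V → ℕ) (O : V → Finset V) (i : ℕ) (a : V) (x : V) : Finset V :=
  if x = hd a₀ (C.rotate i) then (O x).filter (fun w => o w < o a)
  else if x ∈ C.take i then O x else ∅

theorem Oi_sub (C : List V) (a₀ : V) (o : V → ℕ) {O : V → Finset V} {N : V → Finset V}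
    (hO : ∀ x ∈ C, O x ⊆ N x) {i : ℕ} (hi : i < C.length) (a x : V) :
    Oi C a₀ o O i a x ⊆ N x := by
  unfold Oi
  split_ifs with h1 h2
  · refine (Finset.filter_subset _ _).trans (hO x ?_)
    rw [h1, hd_rotate a₀ hi]
    exact List.getElem_mem hi
  · exact hO x (List.mem_of_mem_take h2)
  · exact Finset.empty_subset _

/-- the kept factor of a vertex -/
noncomputable def kf (U : Sym2 Ω → ℝ) (O : V → Finset V) (Λ : Finset V) (z : V → Ω) (x : V) : ℝ :=
  ∏ w ∈ O x ∩ Λ, (1 + U s(z x, z w))

theorem tele1 (f : V → ℝ) (C : List V) (a₀ : V) (n : ℕ) (hn : n ≤ C.length) :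
    ((C.take n).map f).prod = 1 + ∑ i ∈ range n,
      ((C.take i).map f).prod * (f (hd a₀ (C.rotate i)) - 1) := by
  induction n with
  | zero => simp
  | succ n ih =>
    have hn' : n < C.length := hn
    rw [Finset.sum_range_succ, ← add_assoc, ← ih hn'.le, hd_rotate a₀ hn']
    have e : (C.take (n + 1)).map f = (C.take n).map f ++ [f C[n]] := by
      rw [← List.take_append_getElem hn', List.map_append]
      rfl
    rw [e, List.prod_append, List.prod_singleton]
    ring

theorem kf_sub_one (U : Sym2 Ω → ℝ) {o : V → ℕ} (ho : Function.Injective o) (O : V → Finset V)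
    (Λ : Finset V) (z : V → Ω) (x : V) :
    kf U O Λ z x - 1 = ∑ a ∈ O x ∩ Λ, U s(z x, z a) *
      ∏ w ∈ (O x ∩ Λ).filter (fun w => o w < o a), (1 + U s(z x, z w)) := by
  have h := prod_add_ord o ho (O x ∩ Λ) (fun _ => (1:ℝ)) (fun w => U s(z x, z w))
  unfold kf
  rw [h]
  simp

theorem Kp_Oi (U : Sym2 Ω → ℝ) {C : List V} (hC : C.Nodup) (a₀ : V) (o : V → ℕ)
    (O : V → Finset V) (Λ : Finset V) {i : ℕ} (hi : i < C.length) (a : V) (z : V → Ω) :
    Kp U C.toFinset (Oi C a₀ o O i a) Λ z = ((C.take i).map (kf U O Λ z)).prod *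
      ∏ w ∈ (O (hd a₀ (C.rotate i)) ∩ Λ).filter (fun w => o w < o a),
        (1 + U s(z (hd a₀ (C.rotate i)), z w)) := by
  have e0 : Kp U C.toFinset (Oi C a₀ o O i a) Λ z = (C.map (kf U (Oi C a₀ o O i a) Λ z)).prod := by
    unfold Kp
    exact List.prod_toFinset _ hC
  have hsplit : C = C.take i ++ C[i] :: C.drop (i + 1) := by
    rw [← List.drop_eq_getElem_cons hi, List.take_append_drop]
  have hnd : (C.take i ++ C[i] :: C.drop (i + 1)).Nodup := hsplit ▸ hC
  have hx := hd_rotate a₀ hi
  have hprod : ∀ g : V → ℝ, (C.map g).prod =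
      ((C.take i).map g).prod * (g C[i] * ((C.drop (i + 1)).map g).prod) := by
    intro g
    conv_lhs => rw [hsplit]
    rw [List.map_append, List.prod_append, List.map_cons, List.prod_cons]
  rw [e0, hprod, ← hx]
  rw [List.nodup_append] at hnd
  obtain ⟨n1, n2, n3⟩ := hnd
  rw [List.nodup_cons] at n2
  have h1 : (C.take i).map (kf U (Oi C a₀ o O i a) Λ z) = (C.take i).map (kf U O Λ z) := by
    refine List.map_congr_left fun x hx' => ?_
    have hne : x ≠ hd a₀ (C.rotate i) := by
      rw [hx]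
      exact n3 x hx' _ List.mem_cons_self
    unfold kf Oi
    rw [if_neg hne, if_pos hx']
  have h2 : kf U (Oi C a₀ o O i a) Λ z (hd a₀ (C.rotate i)) =
      ∏ w ∈ (O (hd a₀ (C.rotate i)) ∩ Λ).filter (fun w => o w < o a),
        (1 + U s(z (hd a₀ (C.rotate i)), z w)) := by
    unfold kf Oi
    rw [if_pos rfl]
    congr 1
    ext w
    simp only [Finset.mem_inter, Finset.mem_filter]
    tauto
  have h3 : ((C.drop (i + 1)).map (kf U (Oi C a₀ o O i a) Λ z)).prod = 1 := by
    refine List.prod_eq_one fun y hy => ?_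
    obtain ⟨x, hx', rfl⟩ := List.mem_map.1 hy
    have hne : x ≠ hd a₀ (C.rotate i) := by
      rw [hx]
      rintro rfl
      exact n2.1 hx'
    have hnt : x ∉ C.take i := fun h => n3 x h x (List.mem_cons_of_mem _ hx') rfl
    unfold kf Oi
    rw [if_neg hne, if_neg hnt]
    simp
  rw [h1, h2, h3, mul_one]

/-- **telescoping** -/
theorem Kp_tele (U : Sym2 Ω → ℝ) {C : List V} (hC : C.Nodup) (a₀ : V) {o : V → ℕ}
    (ho : Function.Injective o) (O : V → Finset V) (Λ : Finset V) (z : V → Ω) :
    Kp U C.toFinset O Λ z = 1 + ∑ i ∈ range C.length, ∑ a ∈ O (hd a₀ (C.rotate i)) ∩ Λ,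
      U s(z (hd a₀ (C.rotate i)), z a) * Kp U C.toFinset (Oi C a₀ o O i a) Λ z := by
  have e0 : Kp U C.toFinset O Λ z = (C.map (kf U O Λ z)).prod := by
    unfold Kp
    exact List.prod_toFinset _ hC
  have h := tele1 (kf U O Λ z) C a₀ C.length le_rfl
  rw [List.take_length] at h
  rw [e0, h]
  congr 1
  refine Finset.sum_congr rfl fun i hi => ?_
  have hi' := Finset.mem_range.1 hi
  rw [kf_sub_one U ho, Finset.mul_sum]
  refine Finset.sum_congr rfl fun a _ => ?_
  rw [Kp_Oi U hC a₀ o O Λ hi' a z]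
  ring

end lists

end H998

end Vale.Agent.P050.Opt
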