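import Vale.Agent.P050.O.H998.Lists
import Vale.Agent.P050.O.H128.Explore

set_option linter.all false

/-!
Dense targets, optimal order, S5c (helper998): a pure cycle.
-/

open MeasureTheory Finset

namespace Vale.Agent.P050.Opt

open Vale.Agent.P050 Vale.Agent.P050.Dense

namespace H998

variable {V : Type*} [Fintype V] [DecidableEq V] {Ω : Type*} [MeasurableSpace Ω]
variable (H : SimpleGraph V) [DecidableRel H.Adj] (o : V → ℕ)
variable (μ : Measure Ω) [IsProbabilityMeasure μ] {U : Sym2 Ω → ℝ} {R : V → Ω → ℝ} {κ η : ℝ}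

/-! ### the integral of the cycle -/

omit [Fintype V] [DecidableEq V] in
theorem pathEdges_append (a b c : V) (p q : List V) :
    pathEdges a (p ++ b :: q) c = pathEdges a p b ++ pathEdges b q c := by
  induction p generalizing a with
  | nil => simp [pathEdges]
  | cons v p ih => simp [pathEdges, ih]

theorem integral_cyp (hU : Good U 1) {C : List V} (hC : C.Nodup) {k : ℕ} (hk : 2 ≤ k)
    (hlen : C.length = 2 * k) : ∫ z, cyp U C z ∂(piM V μ) = ck μ U k := by
  obtain ⟨a, p, ha⟩ := List.exists_cons_of_length_pos (l := C.take k)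
    (by rw [List.length_take]; omega)
  obtain ⟨b, q, hb⟩ := List.exists_cons_of_length_pos (l := C.drop k)
    (by rw [List.length_drop]; omega)
  have e : C = a :: p ++ b :: q := by rw [← ha, ← hb, List.take_append_drop]
  have hp : p.length + 1 = k := by
    have := congrArg List.length ha
    rw [List.length_take, List.length_cons] at this
    omega
  have hq : q.length + 1 = k := by
    have := congrArg List.length hb
    rw [List.length_drop, List.length_cons] at this
    omega
  have h : CycPres (cycEdges a b p q) k a b p q :=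
    { hk := hk
      hp := hp
      hq := hq
      nodup := e ▸ hC
      sub := fun e he => by
        unfold cycEdges
        exact List.mem_toFinset.2 he
      chordless := fun u _ v _ he => by
        unfold cycEdges at he
        exact List.mem_toFinset.1 he }
  have hnd : (pathEdges a p b ++ pathEdges b q a).Nodup := by
    rw [List.nodup_append]
    refine ⟨pathEdges_nodup h.nd1, pathEdges_nodup h.nd2, ?_⟩
    intro e he e' he' hee
    subst hee
    obtain ⟨v, hv, hve⟩ := exists_mem_pathEdges h.p_ne he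
    have h1 := (mem_avoid.mp (h.sub2 e he')).2 v hve
    exact h1 (List.mem_toFinset.mpr hv)
  rw [← w_cyc μ hU h]
  unfold w wt cycEdges
  congr 1
  ext z
  rw [List.prod_toFinset _ hnd, e]
  show ((pathEdges a (p ++ b :: q) a).map _).prod = _
  rw [pathEdges_append]

/-! ### the shapes -/

variable {H o}

theorem kO_sub {O : V → Finset V} (hO : ∀ y, O y ⊆ H.neighborFinset y) (a : V) (L : List V)
    (y : V) : kO H o O a L y ⊆ H.neighborFinset y := by
  induction L with
  | nil => exact hO y
  | cons w L ih =>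
    show Function.update (kO H o O a L) (hd a L)
      ((H.neighborFinset (hd a L)).filter fun w' => o w' < o w) y ⊆ _
    by_cases h : y = hd a L
    · rw [h, Function.update_self]
      exact Finset.filter_subset _ _
    · rw [Function.update_of_ne h]
      exact ih

theorem mem_dropLast {L m : List V} {a x : V} (hm : m ≠ []) :
    x ∈ (L ++ a :: x :: m).tail.dropLast := by
  obtain ⟨m', y, rfl⟩ : ∃ m' y, m = m' ++ [y] :=
    ⟨m.dropLast, m.getLast hm, (List.dropLast_append_getLast hm).symm⟩
  cases L with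
  | nil =>
    have e : ([] ++ a :: x :: (m' ++ [y])).tail = (x :: m') ++ [y] := by simp
    rw [e, List.dropLast_concat]
    exact List.mem_cons_self
  | cons w L =>
    have e : (w :: L ++ a :: x :: (m' ++ [y])).tail = (L ++ a :: x :: m') ++ [y] := by simp
    rw [e, List.dropLast_concat]
    simp

theorem shape3 {x a' a : V} {m L : List V} {Λ : Finset V} {j : ℕ}
    {O : V → Finset V} (hnd : (x :: (m ++ [a'])).Nodup) (hm : m ≠ [])
    (hpath : ∀ u v, Cons a' (x :: m) u v → H.Adj u v) (hcl : H.Adj a' x)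
    (hX : ∀ y ∈ x :: (m ++ [a']), y ∉ Λ) (ha : a ∈ Λ) (hxa : H.Adj x a)
    (hL : L ∈ Wk H a (Λ.erase a) j) (hOx : ∀ w ∈ O x, o w < o a)
    (hON : ∀ y, O y ⊆ H.neighborFinset y) {q : Finset V × Bool}
    (hq : q ∈ Cq (vs a' (x :: m) ∪ pv a L) (kO H o O a L) (hd a L)) :
    Shape H a' (L ++ a :: x :: m) (some (some x)) q.1 q.2 := by
  obtain ⟨h1, h2, h3, h4⟩ := mem_Wk.1 hL
  unfold Cq at hq
  rw [Finset.mem_filter, Finset.mem_product, Finset.mem_powerset] at hq
  obtain ⟨⟨hq1, -⟩, hq2⟩ := hq
  have hq3 : 1 ≤ q.1.card + (if q.2 then 1 else 0) := by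
    obtain ⟨S, b⟩ := q
    cases b
    · have hS : S.Nonempty := by
        rw [Finset.nonempty_iff_ne_empty]
        rintro rfl
        exact hq2 rfl
      have := hS.card_pos
      simp only [Bool.false_eq_true, if_false]
      omega
    · simp
  refine
    { nd := ?_
      path := ?_
      ne := by simp
      sS := ?_
      aS := ?_
      aB := ?_
      two := ?_
      one := hq3 }
  · have e : L ++ a :: x :: m ++ [a'] = (L ++ [a]) ++ (x :: (m ++ [a'])) := by simp
    rw [e, List.nodup_append]
    refine ⟨h2, hnd, ?_⟩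
    intro y hy y' hy' hyy
    subst hyy
    refine hX y hy' ?_
    rcases List.mem_append.1 hy with hy | hy
    · exact Finset.mem_of_mem_erase (h3 y hy)
    · rw [List.mem_singleton] at hy
      exact hy ▸ ha
  · intro u v huv
    rcases cons_append_cons.1 huv with h | ⟨rfl, rfl⟩ | h
    · exact h4 u v h
    · exact hxa.symm
    · exact hpath u v h
  · intro y hy
    have hy' := Finset.mem_filter.1 (hq1 hy)
    cases L with
    | nil =>
      show y ∈ vs a' m
      have hyx : y ≠ x := by
        rintro rfl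
        exact lt_irrefl _ (hOx _ hy'.2)
      have h5 : y ∈ vs a' (x :: m) := by
        rcases Finset.mem_union.1 hy'.1 with h | h
        · exact h
        · exact absurd h (Finset.notMem_empty _)
      rw [vs_cons, Finset.mem_insert] at h5
      exact h5.resolve_left hyx
    | cons w L =>
      show y ∈ pv a' (L ++ a :: x :: m)
      rw [pv_append]
      have hne : y ≠ hd a L := by
        rintro rfl
        have h6 : w ∈ Function.update (kO H o O a L) (hd a L)
          ((H.neighborFinset (hd a L)).filter fun w' => o w' < o w) (hd a L) := hy'.2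
        rw [Function.update_self] at h6
        exact lt_irrefl _ (Finset.mem_filter.1 h6).2
      rcases Finset.mem_union.1 hy'.1 with h | h
      · exact Finset.mem_union_left _ h
      · have h7 : y ∈ vs a L := h
        rw [vs_eq_insert, Finset.mem_insert] at h7
        exact Finset.mem_union_right _ (h7.resolve_left hne)
  · intro y hy
    have hy' := Finset.mem_filter.1 (hq1 hy)
    rw [hd_append_cons]
    exact (H.mem_neighborFinset y _).1 (kO_sub hON a L y hy'.2)
  · intro c hc
    simp only [Option.some.injEq] at hc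
    subst hc
    exact ⟨mem_dropLast hm, hcl⟩
  · simp only [reduceCtorEq, if_false]
    omega

variable (H o)

theorem psi_eq (U : Sym2 Ω → ℝ) (R : V → Ω → ℝ) (x a' a : V) (m L : List V) (S : Finset V)
    (b : Bool) (z : V → Ω) :
    cyp U (x :: (m ++ [a'])) z * U s(z x, z a) * pU U a L z * cl U R (hd a L) S b z =
      psi U R a' (L ++ a :: x :: m) (some (some x)) S b z := by
  unfold psi
  rw [cyp_eq, pU_append_cons, hd_append_cons]
  simp only [bf, hd_cons]
  ring

open scoped Classical in
/-- the terms with one kept edge at the first vertex `x` -/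
theorem term3 {D : ℕ} (hstep : H128.StepStmt H o μ U R) (hD : ∀ v, H.degree v ≤ D)
    (hU : Ker μ U κ η) (hη : (1 + η) ^ D ≤ 2) (hR : One μ R)
    {T : V × List V × Option (Option V) × Finset V × Bool → ℝ} (hT0 : ∀ q, 0 ≤ T q)
    (hT : TB H μ U R T) {x a' a : V} {m : List V} {Λ : Finset V} {O : V → Finset V}
    (hnd : (x :: (m ++ [a'])).Nodup) (hm : m ≠ [])
    (hpath : ∀ u v, Cons a' (x :: m) u v → H.Adj u v) (hcl : H.Adj a' x)
    (hX : ∀ y ∈ x :: (m ++ [a']), y ∉ Λ) (ha : a ∈ Λ) (hxa : H.Adj x a)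
    (hOx : ∀ w ∈ O x, o w < o a) (hON : ∀ y, O y ⊆ H.neighborFinset y) :
    |IT H μ U R (fun z => cyp U (x :: (m ++ [a'])) z * U s(z x, z a)) (vs a' (x :: m)) O Λ| ≤
      ∑ j ∈ range (Fintype.card V), ∑ L ∈ Wk H a (Λ.erase a) j,
        ∑ q ∈ ((univ : Finset (Finset V × Bool)).filter fun q =>
          Shape H a' (L ++ a :: x :: m) (some (some x)) q.1 q.2),
          2 ^ (j + 1 + (m.length + 2)) * T (a', L ++ a :: x :: m, some (some x), q.1, q.2) *
            ZE H μ U R (Λ \ vs a L) := by
  have hZ : ∀ Λ : Finset V, 0 ≤ ZE H μ U R Λ := fun Λ => by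
    unfold ZE
    exact integral_nonneg fun z => Env_nonneg H hU hR Λ z
  have hvs : ∀ y, y ∈ vs a' (x :: m) ↔ y ∈ x :: (m ++ [a']) := fun y => mem_vs'
  have hg : BM (cyp U (x :: (m ++ [a']))) := by
    have : cyp U (x :: (m ++ [a'])) = fun z => pU U a' (x :: m) z * U s(z a', z x) :=
      funext fun z => cyp_eq U a' x m z
    rw [this]
    exact (Opt.bm_pU hU.good a' (x :: m)).mul (bm_U hU.good a' x)
  have hgX : ∀ w ∉ vs a' (x :: m), Ind w (cyp U (x :: (m ++ [a']))) := by
    intro w hw
    have e : cyp U (x :: (m ++ [a'])) = fun z => pU U a' (x :: m) z * U s(z a', z x) :=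
      funext fun z => cyp_eq U a' x m z
    rw [e]
    have h1 : a' ≠ w := fun h => hw (by rw [hvs]; simp [h])
    have h2 : x ≠ w := fun h => hw (by rw [hvs]; simp [h])
    exact H128.ind_mul (Opt.ind_pU U hw) (H128.ind_U h1 h2)
  have hXΛ : Disjoint (vs a' (x :: m)) Λ := by
    rw [Finset.disjoint_left]
    exact fun y hy => hX y ((hvs y).1 hy)
  have haX : a ∉ vs a' (x :: m) := fun h => hX a ((hvs a).1 h) ha
  have hxX : x ∈ vs a' (x :: m) := by rw [hvs]; simp
  have hex := H128.explore_of H o μ hstep hU (X := vs a' (x :: m)) (Λ := Λ.erase a) (O := O)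
    (s := x) (a := a) hg hgX hxX haX (Finset.notMem_erase a Λ)
    (hXΛ.mono_right (Finset.erase_subset _ _))
  rw [Finset.insert_erase ha] at hex
  rw [hex]
  refine (Finset.abs_sum_le_sum_abs _ _).trans (Finset.sum_le_sum fun j _ => ?_)
  refine (Finset.abs_sum_le_sum_abs _ _).trans (Finset.sum_le_sum fun L hL => ?_)
  refine (Finset.abs_sum_le_sum_abs _ _).trans ?_
  have hsh : ∀ q ∈ Cq (vs a' (x :: m) ∪ pv a L) (kO H o O a L) (hd a L),
      Shape H a' (L ++ a :: x :: m) (some (some x)) q.1 q.2 := fun q hq =>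
    shape3 hnd hm hpath hcl hX ha hxa hL hOx hON hq
  obtain ⟨h1, h2, h3, h4⟩ := mem_Wk.1 hL
  have hX' : vs a' (x :: m) ∪ vs a L = vs a' (L ++ a :: x :: m) := by
    rw [vs_append_cons, Finset.union_comm]
  have hΛ' : Λ.erase a \ vs a L = Λ \ vs a L := by
    ext y
    simp only [Finset.mem_sdiff, Finset.mem_erase, mem_vs]
    tauto
  have hb : ∀ q ∈ Cq (vs a' (x :: m) ∪ pv a L) (kO H o O a L) (hd a L),
      |IT H μ U R (fun z => cyp U (x :: (m ++ [a'])) z * U s(z x, z a) * pU U a L z *
          cl U R (hd a L) q.1 q.2 z)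
        (vs a' (x :: m) ∪ vs a L) (Function.update (kO H o O a L) (hd a L)
          (H.neighborFinset (hd a L))) (Λ.erase a \ vs a L)| ≤
      2 ^ (j + 1 + (m.length + 2)) * T (a', L ++ a :: x :: m, some (some x), q.1, q.2) *
            ZE H μ U R (Λ \ vs a L) := by
    intro q hq
    have hs := hsh q hq
    have hcard : (vs a' (L ++ a :: x :: m)).card = j + 1 + (m.length + 2) := by
      rw [card_vs hs.nd]
      simp only [List.length_append, List.length_cons, h1]
      omega
    have hG : (fun z => cyp U (x :: (m ++ [a'])) z * U s(z x, z a) * pU U a L z *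
          cl U R (hd a L) q.1 q.2 z) = psi U R a' (L ++ a :: x :: m) (some (some x)) q.1 q.2 :=
      funext fun z => psi_eq U R x a' a m L q.1 q.2 z
    rw [hG, hX', hΛ', ← hcard]
    refine IT_le H μ hD hU hη hR (Opt.bm_psi hU.good hR.bm _ _ _ _ _) ?_ ?_ ?_ ?_
    · intro u hu
      have hx' : x ∈ vs a' (L ++ a :: x :: m) := by simp
      have ha' : a' ∈ vs a' (L ++ a :: x :: m) := by simp
      have hux : u ≠ x := fun h => hu (h ▸ hx')
      have hua : u ≠ a' := fun h => hu (h ▸ ha')
      have huh : u ≠ hd a' (L ++ a :: x :: m) := fun h => hu (h ▸ hd_mem _ _)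
      have huS : u ∉ q.1 := by
        intro h
        have h6 := hs.sS h
        refine hu ?_
        obtain ⟨w, l, hl⟩ : ∃ w l, L ++ a :: x :: m = w :: l :=
          List.exists_cons_of_ne_nil hs.ne
        rw [hl] at h6 ⊢
        rw [vs_cons, Finset.mem_insert, vs_eq_insert, Finset.mem_insert]
        exact Or.inr (Or.inr h6)
      refine H128.ind_mul (H128.ind_mul (Opt.ind_pU U hu) (Opt.ind_bf U R hua ?_))
        (Opt.ind_cl U R huh huS)
      intro c hc
      simp only [Option.some.injEq] at hc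
      exact hc ▸ hux
    · intro y _
      by_cases h : y = hd a L
      · rw [h, Function.update_self]
      · rw [Function.update_of_ne h]
        exact kO_sub hON a L y
    · rw [← hX', Finset.disjoint_union_left]
      exact ⟨hXΛ.mono_right Finset.sdiff_subset, Finset.disjoint_sdiff⟩
    · intro h hbm hle
      exact hT (a', L ++ a :: x :: m, some (some x), q.1, q.2) hs h hbm hle
  refine (Finset.sum_le_sum hb).trans ?_
  refine Finset.sum_le_sum_of_subset_of_nonneg ?_ ?_
  · intro q hq
    exact Finset.mem_filter.2 ⟨Finset.mem_univ _, hsh q hq⟩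
  · intro q _ _
    exact mul_nonneg (mul_nonneg (by positivity) (hT0 _)) (hZ _)

theorem exists_form {C : List V} (h : 2 ≤ C.length) : ∃ x m a, C = x :: (m ++ [a]) := by
  obtain ⟨x, l, rfl⟩ := List.exists_cons_of_length_pos (l := C) (by omega)
  have hl : l ≠ [] := by
    rintro rfl
    simp at h
  exact ⟨x, l.dropLast, l.getLast hl, by rw [List.dropLast_append_getLast hl]⟩

/-- the expansion of the kept factors -/
theorem IT_tele (hU : Ker μ U κ η) (hR : One μ R) {o : V → ℕ} (ho : Function.Injective o)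
    {C : List V} (hC : C.Nodup) (a₀ : V) {k : ℕ} (hk : 2 ≤ k) (hlen : C.length = 2 * k)
    (O : V → Finset V) {Λ : Finset V} (hX : ∀ y ∈ C, y ∉ Λ) :
    IT H μ U R (cyp U C) C.toFinset O Λ = ck μ U k * ZE H μ U R Λ +
      ∑ i ∈ range C.length, ∑ a ∈ O (hd a₀ (C.rotate i)) ∩ Λ,
        IT H μ U R (fun z => cyp U C z * U s(z (hd a₀ (C.rotate i)), z a)) C.toFinset
          (Oi C a₀ o O i a) Λ := by
  obtain ⟨x, m, a', hform⟩ := exists_form (C := C) (by omega)
  have e : cyp U C = fun z => pU U a' (x :: m) z * U s(z a', z x) := by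
    rw [hform]
    exact funext fun z => cyp_eq U a' x m z
  have hg : BM (cyp U C : (V → Ω) → ℝ) := by
    rw [e]
    exact (Opt.bm_pU hU.good a' (x :: m)).mul (bm_U hU.good a' x)
  have hgX : ∀ w, w ∉ C.toFinset → Ind w (cyp U C : (V → Ω) → ℝ) := by
    intro w hw
    rw [List.mem_toFinset] at hw
    rw [e]
    have h0 : w ∉ vs a' (x :: m) := by
      rw [mem_vs']
      rwa [hform] at hw
    have h1 : a' ≠ w := fun h => hw (by rw [hform]; simp [h])
    have h2 : x ≠ w := fun h => hw (by rw [hform]; simp [h])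
    exact H128.ind_mul (Opt.ind_pU U h0) (H128.ind_U h1 h2)
  have hE := bm_Env H hU hR Λ
  have h1 : ∫ z, cyp U C z * Env H U R Λ z ∂(piM V μ) = ck μ U k * ZE H μ U R Λ := by
    rw [integral_mul_of_ind μ C.toFinset (cyp U C) (Env H U R Λ) hg hE hgX
      (fun v hv => Opt.ind_Env H U R (hX v (List.mem_toFinset.1 hv))),
      integral_cyp μ hU.good hC hk hlen]
    rfl
  have hb : ∀ i a, BM (fun z : V → Ω => cyp U C z * U s(z (hd a₀ (C.rotate i)), z a) *
      Kp U C.toFinset (Oi C a₀ o O i a) Λ z * Env H U R Λ z) := fun i a =>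
    ((hg.mul (bm_U hU.good _ _)).mul (bm_Kp hU _ _ _)).mul hE
  have h2 : ∀ z : V → Ω, cyp U C z * Kp U C.toFinset O Λ z * Env H U R Λ z =
      cyp U C z * Env H U R Λ z + ∑ i ∈ range C.length, ∑ a ∈ O (hd a₀ (C.rotate i)) ∩ Λ,
        cyp U C z * U s(z (hd a₀ (C.rotate i)), z a) *
          Kp U C.toFinset (Oi C a₀ o O i a) Λ z * Env H U R Λ z := by
    intro z
    rw [Kp_tele U hC a₀ ho O Λ z, mul_add, mul_one, add_mul, Finset.mul_sum, Finset.sum_mul]
    congr 1
    refine Finset.sum_congr rfl fun i _ => ?_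
    rw [Finset.mul_sum, Finset.sum_mul]
    refine Finset.sum_congr rfl fun a _ => ?_
    ring
  unfold IT
  simp only [h2]
  rw [integral_add ((hg.mul hE).integrable _) (integrable_finset_sum _ fun i _ =>
    integrable_finset_sum _ fun a _ => (hb i a).integrable _), h1]
  congr 1
  rw [integral_finset_sum _ fun i _ => integrable_finset_sum _ fun a _ => (hb i a).integrable _]
  refine Finset.sum_congr rfl fun i _ => ?_
  rw [integral_finset_sum _ fun a _ => (hb i a).integrable _]

end H998

open H998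

variable {V : Type*} [Fintype V] [DecidableEq V] {Ω : Type*} [MeasurableSpace Ω]
variable (H : SimpleGraph V) [DecidableRel H.Adj] (o : V → ℕ)
variable (μ : Measure Ω) [IsProbabilityMeasure μ] {U : Sym2 Ω → ℝ} {R : V → Ω → ℝ} {κ η : ℝ}

open scoped Classical in
/-- S5c: a pure cycle: main term, and exploration from every vertex of the cycle. -/
theorem stage3_of {D : ℕ} (hstep : H128.StepStmt H o μ U R)
    (ho : Function.Injective o) (hD : ∀ v, H.degree v ≤ D) (hU : Ker μ U κ η)
    (hη : (1 + η) ^ D ≤ 2) (hR : One μ R)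
    {T : V × List V × Option (Option V) × Finset V × Bool → ℝ} (hT0 : ∀ q, 0 ≤ T q)
    (hT : TB H μ U R T) {a₀ : V} {L₀ : List V} {Λ : Finset V}
    {O : V → Finset V} (hnd : (L₀ ++ [a₀]).Nodup) (hpath : ∀ x y, Cons a₀ L₀ x y → H.Adj x y)
    {k : ℕ} (hlen : L₀.length + 1 = 2 * k) (hk : 2 ≤ k) (hcl : H.Adj a₀ (hd a₀ L₀))
    (hX : Disjoint (vs a₀ L₀) Λ) (hO : ∀ x ∈ vs a₀ L₀, O x ⊆ H.neighborFinset x) :
    |IT H μ U R (fun z => pU U a₀ L₀ z * U s(z a₀, z (hd a₀ L₀))) (vs a₀ L₀) O Λ -
        ck μ U k * ZE H μ U R Λ| ≤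
      ∑ i ∈ range (2 * k), ∑ j ∈ range (Fintype.card V),
        ∑ a ∈ Λ.filter (fun a => H.Adj (hd a₀ ((L₀ ++ [a₀]).rotate i)) a),
        ∑ L ∈ Wk H a (Λ.erase a) j, ∑ q ∈ ((univ : Finset (Finset V × Bool)).filter fun q =>
          Shape H (((L₀ ++ [a₀]).rotate i).getLast?.getD a₀)
            (L ++ a :: ((L₀ ++ [a₀]).rotate i).dropLast)
            (some (some (hd a₀ ((L₀ ++ [a₀]).rotate i)))) q.1 q.2),
          2 ^ (j + 1 + 2 * k) * T (((L₀ ++ [a₀]).rotate i).getLast?.getD a₀,
            L ++ a :: ((L₀ ++ [a₀]).rotate i).dropLast,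
            some (some (hd a₀ ((L₀ ++ [a₀]).rotate i))), q.1, q.2) * ZE H μ U R (Λ \ vs a L) := by
  have hZ : ∀ Λ : Finset V, 0 ≤ ZE H μ U R Λ := fun Λ => by
    unfold ZE
    exact integral_nonneg fun z => Env_nonneg H hU hR Λ z
  obtain ⟨x₀, m₀, rfl⟩ := List.exists_cons_of_length_pos (l := L₀) (by omega)
  set C : List V := x₀ :: m₀ ++ [a₀] with hCdef
  have hCe : C = x₀ :: (m₀ ++ [a₀]) := rfl
  have hCl : C.length = 2 * k := by
    rw [hCdef, List.length_append, List.length_singleton]
    exact hlen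
  have hvs : vs a₀ (x₀ :: m₀) = C.toFinset := by
    ext y
    rw [List.mem_toFinset, mem_vs']
  have hfun : (fun z : V → Ω => pU U a₀ (x₀ :: m₀) z * U s(z a₀, z (hd a₀ (x₀ :: m₀)))) =
      cyp U C := funext fun z => (cyp_eq U a₀ x₀ m₀ z).symm
  have hadj : ∀ e ∈ cE C, e ∈ H.edgeSet := (adjC_iff H a₀ x₀ m₀).2 ⟨hpath, hcl⟩
  have hXC : ∀ y ∈ C, y ∉ Λ := fun y hy =>
    Finset.disjoint_left.1 hX (by rw [hvs]; exact List.mem_toFinset.2 hy)
  have hOC : ∀ y ∈ C, O y ⊆ H.neighborFinset y := fun y hy =>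
    hO y (by rw [hvs]; exact List.mem_toFinset.2 hy)
  rw [hfun, hvs, IT_tele H μ hU hR ho hnd a₀ hk hCl O hXC, add_sub_cancel_left, hCl]
  refine (Finset.abs_sum_le_sum_abs _ _).trans (Finset.sum_le_sum fun i hi => ?_)
  have hi' : i < C.length := by
    rw [hCl]
    exact Finset.mem_range.1 hi
  obtain ⟨x, m, a', hform⟩ := exists_form (C := C.rotate i) (by rw [List.length_rotate]; omega)
  have hml : m.length + 2 = 2 * k := by
    have := congrArg List.length hform
    rw [List.length_rotate, hCl] at this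
    simp only [List.length_cons, List.length_append, List.length_nil] at this
    omega
  have hm : m ≠ [] := by
    rintro rfl
    simp at hml
    omega
  have hnd' : (x :: (m ++ [a'])).Nodup := by
    rw [← hform]
    exact List.nodup_rotate.2 hnd
  have hmem : ∀ y, y ∈ x :: (m ++ [a']) ↔ y ∈ C := fun y => by
    rw [← hform, List.mem_rotate]
  have hadj' : (∀ u v, Cons a' (x :: m) u v → H.Adj u v) ∧ H.Adj a' x := by
    refine (adjC_iff H a' x m).1 fun e he => hadj e ?_
    rw [← hform] at he
    exact (cE_rotate C i).mem_iff.1 he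
  have hx : hd a₀ (C.rotate i) = x := by rw [hform]; rfl
  have ha' : (C.rotate i).getLast?.getD a₀ = a' := by
    rw [hform, ← List.cons_append, List.getLast?_concat, Option.getD_some]
  have hdl : (C.rotate i).dropLast = x :: m := by
    rw [hform, ← List.cons_append, List.dropLast_concat]
  rw [hx, ha', hdl]
  have hxC : x ∈ C := (hmem x).1 List.mem_cons_self
  have hsub : O x ∩ Λ ⊆ Λ.filter (fun a => H.Adj x a) := by
    intro a ha
    rw [Finset.mem_inter] at ha
    exact Finset.mem_filter.2 ⟨ha.2, (H.mem_neighborFinset x a).1 (hOC x hxC ha.1)⟩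
  have hvs' : C.toFinset = vs a' (x :: m) := by
    ext y
    rw [List.mem_toFinset, mem_vs', ← hmem y]
    rfl
  have hterm : ∀ a ∈ O x ∩ Λ,
      |IT H μ U R (fun z => cyp U C z * U s(z x, z a)) C.toFinset (Oi C a₀ o O i a) Λ| ≤
      ∑ j ∈ range (Fintype.card V), ∑ L ∈ Wk H a (Λ.erase a) j,
        ∑ q ∈ ((univ : Finset (Finset V × Bool)).filter fun q =>
          Shape H a' (L ++ a :: x :: m) (some (some x)) q.1 q.2),
          2 ^ (j + 1 + 2 * k) * T (a', L ++ a :: x :: m, some (some x), q.1, q.2) *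
            ZE H μ U R (Λ \ vs a L) := by
    intro a ha
    have ha1 := Finset.mem_filter.1 (hsub ha)
    have e1 : (fun z : V → Ω => cyp U C z * U s(z x, z a)) =
        fun z => cyp U (x :: (m ++ [a'])) z * U s(z x, z a) := by
      funext z
      rw [← hform, cyp_rotate]
    rw [e1, hvs', ← hml]
    refine term3 H o μ hstep hD hU hη hR hT0 hT hnd' hm hadj'.1 hadj'.2
      (fun y hy => hXC y ((hmem y).1 hy)) ha1.1 ha1.2 ?_ ?_
    · intro w hw
      unfold Oi at hw
      rw [if_pos hx.symm] at hw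
      exact (Finset.mem_filter.1 hw).2
    · intro y
      exact Oi_sub C a₀ o hOC hi' a y
  rw [Finset.sum_comm (s := range (Fintype.card V))]
  refine (Finset.abs_sum_le_sum_abs _ _).trans ((Finset.sum_le_sum hterm).trans ?_)
  refine Finset.sum_le_sum_of_subset_of_nonneg hsub fun a _ _ => ?_
  exact Finset.sum_nonneg fun j _ => Finset.sum_nonneg fun L _ => Finset.sum_nonneg fun q _ =>
    mul_nonneg (mul_nonneg (by positivity) (hT0 _)) (hZ _)

end Vale.Agent.P050.Opt
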